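import Mathlib
import Vale.Agent.Lib.P328.helper1.LorCore
import Vale.Agent.Lib.P328.helper55.UnitRowsNC

/-!
P328: the rank-one bound `NCq` for the numbers of tables with any number of rows, from the
transfer step `lorF_transfer`.

Index set `Fin q ⊕ Fin n` (rows and column reservoirs).  The function
`base C θ p = θ ^ (|rows of p| + ∑ j |p_j - C_j|)` is a product of log-concave sequences for
`0 < θ ≤ 1`; one transfer per cell (from the row to the reservoir of the column) keeps the
class `LorF`; every value is continuous in `θ`, and at `θ = 0` the iterated transfer counts the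
tables with the given row sums and column sums `C` minus the reservoir contents.
-/

namespace Vale.Agent.Lib.P328.NCq.H88

open Finset
open Vale.Agent.Lib.P328.NCq

variable {q n : ℕ}

/-! ### the perturbed base function -/

/-- the factor of the coordinate `a` -/
noncomputable def phi (C : Fin n → ℕ) (θ : ℝ) : Fin q ⊕ Fin n → ℕ → ℝ
  | Sum.inl _, k => θ ^ k
  | Sum.inr j, k => θ ^ (Nat.dist k (C j))

/-- the base function -/
noncomputable def base (C : Fin n → ℕ) (θ : ℝ) (p : Fin q ⊕ Fin n → ℕ) : ℝ :=
  ∏ a, phi C θ a (p a)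

theorem lorF_base (C : Fin n → ℕ) (θ : ℝ) (h0 : 0 < θ) (h1 : θ ≤ 1) :
    LorF (base (q := q) C θ) := by
  have h := lorF_prod (phi (q := q) C θ) (by
      intro a k
      cases a with
      | inl i => exact pow_pos h0 _
      | inr j => exact pow_pos h0 _) (by
      intro a k
      cases a with
      | inl i =>
        show θ ^ k * θ ^ (k + 2) ≤ (θ ^ (k + 1)) ^ 2
        apply le_of_eq
        ring
      | inr j =>
        show θ ^ (Nat.dist k (C j)) * θ ^ (Nat.dist (k + 2) (C j))
          ≤ (θ ^ (Nat.dist (k + 1) (C j))) ^ 2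
        rw [← pow_add, ← pow_mul]
        apply pow_le_pow_of_le_one h0.le h1
        unfold Nat.dist
        omega)
  exact h

theorem cont_base (C : Fin n → ℕ) (p : Fin q ⊕ Fin n → ℕ) :
    Continuous (fun θ : ℝ => base C θ p) := by
  unfold base
  apply continuous_finsetProd
  intro a _
  cases a with
  | inl i => exact continuous_pow _
  | inr j => exact continuous_pow _

theorem base_zero (C : Fin n → ℕ) (p : Fin q ⊕ Fin n → ℕ) :
    base C 0 p = if (∀ i, p (Sum.inl i) = 0) ∧ (∀ j, p (Sum.inr j) = C j) then 1 else 0 := by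
  unfold base
  split_ifs with h
  · apply Finset.prod_eq_one
    intro a _
    cases a with
    | inl i =>
      show (0 : ℝ) ^ (p (Sum.inl i)) = 1
      rw [h.1 i, pow_zero]
    | inr j =>
      show (0 : ℝ) ^ (Nat.dist (p (Sum.inr j)) (C j)) = 1
      rw [h.2 j]
      have : Nat.dist (C j) (C j) = 0 := by unfold Nat.dist; omega
      rw [this, pow_zero]
  · have h' : (∃ i, p (Sum.inl i) ≠ 0) ∨ (∃ j, p (Sum.inr j) ≠ C j) := by
      by_contra hc
      push Not at hc
      exact h ⟨hc.1, hc.2⟩
    rcases h' with ⟨i, hi⟩ | ⟨j, hj⟩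
    · apply Finset.prod_eq_zero (Finset.mem_univ (Sum.inl i))
      show (0 : ℝ) ^ (p (Sum.inl i)) = 0
      exact zero_pow hi
    · apply Finset.prod_eq_zero (Finset.mem_univ (Sum.inr j))
      show (0 : ℝ) ^ (Nat.dist (p (Sum.inr j)) (C j)) = 0
      apply zero_pow
      unfold Nat.dist
      omega

/-! ### iterated transfers -/

/-- one transfer per cell of the list: from the row of the cell to the reservoir of its
column -/
noncomputable def iterC (L : List (Fin q × Fin n)) (F : (Fin q ⊕ Fin n → ℕ) → ℝ) :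
    (Fin q ⊕ Fin n → ℕ) → ℝ :=
  L.foldr (fun cell G => transfer (Sum.inr cell.2) (Sum.inl cell.1) G) F

theorem iterC_nil (F : (Fin q ⊕ Fin n → ℕ) → ℝ) : iterC [] F = F := rfl

theorem iterC_cons (cell : Fin q × Fin n) (L : List (Fin q × Fin n))
    (F : (Fin q ⊕ Fin n → ℕ) → ℝ) :
    iterC (cell :: L) F = transfer (Sum.inr cell.2) (Sum.inl cell.1) (iterC L F) := rfl

theorem lorF_iterC (L : List (Fin q × Fin n)) (F : (Fin q ⊕ Fin n → ℕ) → ℝ) (hF : LorF F) :
    LorF (iterC L F) := by
  induction L with
  | nil => exact hF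
  | cons cell L ih =>
    rw [iterC_cons]
    exact lorF_transfer _ _ (by simp) _ ih

theorem cont_iterC (L : List (Fin q × Fin n)) (F : ℝ → (Fin q ⊕ Fin n → ℕ) → ℝ)
    (hF : ∀ p, Continuous (fun θ => F θ p)) :
    ∀ p, Continuous (fun θ => iterC L (F θ) p) := by
  induction L with
  | nil => exact hF
  | cons cell L ih =>
    intro p
    simp only [iterC_cons]
    unfold transfer
    apply continuous_finsetSum
    intro k _
    exact ih _

/-! ### the counts -/

/-- the box that contains every table with column sums at most `C` -/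
def box (q : ℕ) (C : Fin n → ℕ) : Finset (Fin q → Fin n → ℕ) :=
  Fintype.piFinset (fun _ => Fintype.piFinset (fun j => Finset.range (C j + 1)))

/-- the property counted: support in `S`, row sums `p` on the rows, column sums `C` minus
the reservoirs -/
def Good (C : Fin n → ℕ) (S : Finset (Fin q × Fin n)) (p : Fin q ⊕ Fin n → ℕ)
    (K : Fin q → Fin n → ℕ) : Prop :=
  (∀ i j, (i, j) ∉ S → K i j = 0) ∧ (∀ i, ∑ j, K i j = p (Sum.inl i)) ∧
    ∀ j, p (Sum.inr j) + ∑ i, K i j = C j

theorem mem_box_of_good {C : Fin n → ℕ} {S : Finset (Fin q × Fin n)} {p : Fin q ⊕ Fin n → ℕ}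
    {K : Fin q → Fin n → ℕ} (h : Good C S p K) : K ∈ box q C := by
  unfold box
  rw [Fintype.mem_piFinset]
  intro i
  rw [Fintype.mem_piFinset]
  intro j
  rw [Finset.mem_range]
  have h1 := h.2.2 j
  have h2 : K i j ≤ ∑ i', K i' j :=
    Finset.single_le_sum (f := fun i' => K i' j) (fun _ _ => Nat.zero_le _) (Finset.mem_univ i)
  omega

/-- the set of the tables counted -/
noncomputable def goodSet (C : Fin n → ℕ) (S : Finset (Fin q × Fin n))
    (p : Fin q ⊕ Fin n → ℕ) : Finset (Fin q → Fin n → ℕ) := by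
  classical exact (box q C).filter (fun K => Good C S p K)

theorem mem_goodSet {C : Fin n → ℕ} {S : Finset (Fin q × Fin n)} {p : Fin q ⊕ Fin n → ℕ}
    {K : Fin q → Fin n → ℕ} : K ∈ goodSet C S p ↔ Good C S p K := by
  classical
  unfold goodSet
  rw [Finset.mem_filter]
  exact ⟨fun h => h.2, fun h => ⟨mem_box_of_good h, h⟩⟩

/-- the number of tables -/
noncomputable def cnt (C : Fin n → ℕ) (S : Finset (Fin q × Fin n))
    (p : Fin q ⊕ Fin n → ℕ) : ℕ := (goodSet C S p).card

theorem cnt_empty (C : Fin n → ℕ) (p : Fin q ⊕ Fin n → ℕ) :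
    (cnt C (∅ : Finset (Fin q × Fin n)) p : ℝ) = base C 0 p := by
  rw [base_zero]
  unfold cnt
  split_ifs with h
  · have : goodSet C (∅ : Finset (Fin q × Fin n)) p = {fun _ _ => 0} := by
      ext K
      rw [mem_goodSet, Finset.mem_singleton]
      constructor
      · intro hK
        funext i j
        exact hK.1 i j (Finset.notMem_empty _)
      · intro hK
        subst hK
        refine ⟨fun _ _ _ => rfl, fun i => ?_, fun j => ?_⟩
        · rw [h.1 i]; simp
        · rw [h.2 j]; simp
    rw [this, Finset.card_singleton]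
    norm_num
  · have : goodSet C (∅ : Finset (Fin q × Fin n)) p = ∅ := by
      ext K
      rw [mem_goodSet]
      constructor
      · intro hK
        exfalso
        apply h
        have hK0 : K = fun _ _ => 0 := by
          funext i j
          exact hK.1 i j (Finset.notMem_empty _)
        subst hK0
        refine ⟨fun i => ?_, fun j => ?_⟩
        · have := hK.2.1 i
          simpa using this.symm
        · have := hK.2.2 j
          simpa using this
      · intro hK
        exact absurd hK (Finset.notMem_empty _)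
    rw [this, Finset.card_empty]
    norm_num

section peel

variable (i0 : Fin q) (j0 : Fin n)

/-- clear the cell `(i0, j0)` -/
def clr (K : Fin q → Fin n → ℕ) : Fin q → Fin n → ℕ :=
  fun i j => if i = i0 ∧ j = j0 then 0 else K i j

/-- put `k` into the cell `(i0, j0)` -/
def setk (k : ℕ) (K : Fin q → Fin n → ℕ) : Fin q → Fin n → ℕ :=
  fun i j => K i j + if i = i0 ∧ j = j0 then k else 0

theorem row_unit (k : ℕ) (i : Fin q) :
    ∑ j, (if i = i0 ∧ j = j0 then k else 0) = if i = i0 then k else 0 := by
  by_cases hi : i = i0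
  · simp [hi]
  · simp [hi]

theorem col_unit (k : ℕ) (j : Fin n) :
    ∑ i, (if i = i0 ∧ j = j0 then k else 0) = if j = j0 then k else 0 := by
  by_cases hj : j = j0
  · simp [hj]
  · simp [hj]

theorem row_setk (k : ℕ) (K : Fin q → Fin n → ℕ) (i : Fin q) :
    ∑ j, setk i0 j0 k K i j = ∑ j, K i j + if i = i0 then k else 0 := by
  unfold setk
  rw [Finset.sum_add_distrib, row_unit]

theorem col_setk (k : ℕ) (K : Fin q → Fin n → ℕ) (j : Fin n) :
    ∑ i, setk i0 j0 k K i j = ∑ i, K i j + if j = j0 then k else 0 := by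
  unfold setk
  rw [Finset.sum_add_distrib, col_unit]

theorem setk_clr (K : Fin q → Fin n → ℕ) : setk i0 j0 (K i0 j0) (clr i0 j0 K) = K := by
  funext i j
  unfold setk clr
  by_cases h : i = i0 ∧ j = j0
  · rw [if_pos h, if_pos h, h.1, h.2]
    simp
  · rw [if_neg h, if_neg h]
    simp

theorem clr_setk (k : ℕ) (K : Fin q → Fin n → ℕ) (hK : K i0 j0 = 0) :
    clr i0 j0 (setk i0 j0 k K) = K := by
  funext i j
  by_cases h : i = i0 ∧ j = j0
  · simp only [clr, if_pos h]
    rw [h.1, h.2, hK]
  · simp only [clr, setk, if_neg h, add_zero]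

theorem setk_cell (k : ℕ) (K : Fin q → Fin n → ℕ) (hK : K i0 j0 = 0) :
    setk i0 j0 k K i0 j0 = k := by
  unfold setk
  simp [hK]

/-- the point reached by moving `k` units from the row `i0` to the reservoir `j0` -/
def mv (p : Fin q ⊕ Fin n → ℕ) (k : ℕ) : Fin q ⊕ Fin n → ℕ :=
  Function.update (Function.update p (Sum.inl i0) (p (Sum.inl i0) - k)) (Sum.inr j0)
    (p (Sum.inr j0) + k)

theorem mv_inl (p : Fin q ⊕ Fin n → ℕ) (k : ℕ) (i : Fin q) :
    mv i0 j0 p k (Sum.inl i) = if i = i0 then p (Sum.inl i0) - k else p (Sum.inl i) := by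
  unfold mv
  rw [Function.update_of_ne (by simp), Function.update_apply]
  simp

theorem mv_inr (p : Fin q ⊕ Fin n → ℕ) (k : ℕ) (j : Fin n) :
    mv i0 j0 p k (Sum.inr j) = if j = j0 then p (Sum.inr j0) + k else p (Sum.inr j) := by
  unfold mv
  rw [Function.update_apply]
  by_cases hj : j = j0
  · simp [hj]
  · rw [if_neg (by simpa using hj), if_neg hj, Function.update_of_ne (by simp)]

theorem good_clr {C : Fin n → ℕ} {S : Finset (Fin q × Fin n)} {p : Fin q ⊕ Fin n → ℕ}
    {K : Fin q → Fin n → ℕ} (h : Good C (insert (i0, j0) S) p K) :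
    Good C S (mv i0 j0 p (K i0 j0)) (clr i0 j0 K) := by
  have hrow : ∀ i, ∑ j, K i j = ∑ j, clr i0 j0 K i j + if i = i0 then K i0 j0 else 0 := by
    intro i
    rw [← row_setk, setk_clr]
  have hcol : ∀ j, ∑ i, K i j = ∑ i, clr i0 j0 K i j + if j = j0 then K i0 j0 else 0 := by
    intro j
    rw [← col_setk, setk_clr]
  refine ⟨?_, ?_, ?_⟩
  · intro i j hij
    unfold clr
    by_cases hc : i = i0 ∧ j = j0
    · rw [if_pos hc]
    · rw [if_neg hc]
      apply h.1
      rw [Finset.mem_insert]
      push Not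
      refine ⟨?_, hij⟩
      intro he
      apply hc
      rw [Prod.mk.injEq] at he
      exact he
  · intro i
    rw [mv_inl]
    have h1 := h.2.1 i
    have h2 := hrow i
    by_cases hi : i = i0
    · rw [if_pos hi] at h2 ⊢
      rw [hi] at h1 h2 ⊢
      omega
    · rw [if_neg hi] at h2 ⊢
      omega
  · intro j
    rw [mv_inr]
    have h1 := h.2.2 j
    have h2 := hcol j
    by_cases hj : j = j0
    · rw [if_pos hj] at h2 ⊢
      rw [hj] at h1 h2 ⊢
      omega
    · rw [if_neg hj] at h2 ⊢
      omega

theorem good_setk {C : Fin n → ℕ} {S : Finset (Fin q × Fin n)} {p : Fin q ⊕ Fin n → ℕ}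
    {k : ℕ} (hk : k ≤ p (Sum.inl i0)) {K : Fin q → Fin n → ℕ}
    (h : Good C S (mv i0 j0 p k) K) :
    Good C (insert (i0, j0) S) p (setk i0 j0 k K) := by
  refine ⟨?_, ?_, ?_⟩
  · intro i j hij
    rw [Finset.mem_insert] at hij
    push Not at hij
    unfold setk
    have hc : ¬ (i = i0 ∧ j = j0) := by
      intro hc
      apply hij.1
      rw [hc.1, hc.2]
    rw [if_neg hc, h.1 i j hij.2]
  · intro i
    rw [row_setk]
    have h1 := h.2.1 i
    rw [mv_inl] at h1
    by_cases hi : i = i0
    · rw [if_pos hi] at h1 ⊢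
      rw [hi] at h1 ⊢
      omega
    · rw [if_neg hi] at h1 ⊢
      omega
  · intro j
    rw [col_setk]
    have h1 := h.2.2 j
    rw [mv_inr] at h1
    by_cases hj : j = j0
    · rw [if_pos hj] at h1 ⊢
      rw [hj] at h1 ⊢
      omega
    · rw [if_neg hj] at h1 ⊢
      omega

theorem cell_le {C : Fin n → ℕ} {S : Finset (Fin q × Fin n)} {p : Fin q ⊕ Fin n → ℕ}
    {K : Fin q → Fin n → ℕ} (h : Good C S p K) : K i0 j0 ≤ p (Sum.inl i0) := by
  rw [← h.2.1 i0]
  exact Finset.single_le_sum (f := fun j => K i0 j) (fun _ _ => Nat.zero_le _)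
    (Finset.mem_univ j0)

/-- **Peeling one cell.** -/
theorem cnt_insert (C : Fin n → ℕ) (S : Finset (Fin q × Fin n)) (hS : (i0, j0) ∉ S)
    (p : Fin q ⊕ Fin n → ℕ) :
    (cnt C (insert (i0, j0) S) p : ℝ)
      = transfer (Sum.inr j0) (Sum.inl i0) (fun p' => (cnt C S p' : ℝ)) p := by
  classical
  unfold transfer
  have hnat : cnt C (insert (i0, j0) S) p
      = ∑ k ∈ Finset.range (p (Sum.inl i0) + 1), cnt C S (mv i0 j0 p k) := by
    unfold cnt
    rw [Finset.card_eq_sum_card_fiberwise (f := fun K : Fin q → Fin n → ℕ => K i0 j0)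
      (t := Finset.range (p (Sum.inl i0) + 1))]
    · apply Finset.sum_congr rfl
      intro k hk
      rw [Finset.mem_range] at hk
      apply Finset.card_nbij' (clr i0 j0) (setk i0 j0 k)
      · intro K hK
        rw [Finset.mem_coe, Finset.mem_filter, mem_goodSet] at hK
        rw [Finset.mem_coe, mem_goodSet]
        have := good_clr i0 j0 hK.1
        rw [hK.2] at this
        exact this
      · intro K hK
        rw [Finset.mem_coe, mem_goodSet] at hK
        rw [Finset.mem_coe, Finset.mem_filter, mem_goodSet]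
        exact ⟨good_setk i0 j0 (by omega) hK, setk_cell i0 j0 k K (hK.1 i0 j0 hS)⟩
      · intro K hK
        rw [Finset.mem_coe, Finset.mem_filter, mem_goodSet] at hK
        have := setk_clr i0 j0 K
        rw [hK.2] at this
        exact this
      · intro K hK
        rw [Finset.mem_coe, mem_goodSet] at hK
        exact clr_setk i0 j0 k K (hK.1 i0 j0 hS)
    · intro K hK
      rw [Finset.mem_coe, mem_goodSet] at hK
      rw [Finset.mem_coe, Finset.mem_range]
      have := cell_le i0 j0 hK
      show K i0 j0 < p (Sum.inl i0) + 1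
      omega
  rw [hnat]
  push_cast
  rfl

end peel

theorem iterC_base_zero (C : Fin n → ℕ) (L : List (Fin q × Fin n)) (hL : L.Nodup) :
    iterC L (base C 0) = fun p => (cnt C L.toFinset p : ℝ) := by
  induction L with
  | nil =>
    funext p
    rw [iterC_nil, List.toFinset_nil, cnt_empty]
  | cons cell L ih =>
    rw [List.nodup_cons] at hL
    funext p
    rw [iterC_cons, ih hL.2, List.toFinset_cons]
    obtain ⟨i0, j0⟩ := cell
    rw [cnt_insert i0 j0 C L.toFinset (by rw [List.mem_toFinset]; exact hL.1) p]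

/-! ### the rank-one bound -/

theorem bil_elim (A : Fin q ⊕ Fin n → Fin q ⊕ Fin n → ℝ) (s t : Fin n → ℝ) :
    bil A (Sum.elim 0 s) (Sum.elim 0 t) = ∑ j, ∑ l, s j * A (Sum.inr j) (Sum.inr l) * t l := by
  unfold bil
  simp [Fintype.sum_sum_type]

theorem cont_bil (A : ℝ → Fin q ⊕ Fin n → Fin q ⊕ Fin n → ℝ)
    (hA : ∀ a b, Continuous (fun θ => A θ a b)) (x u : Fin q ⊕ Fin n → ℝ) :
    Continuous (fun θ => bil (A θ) x u) := by
  unfold bil
  apply continuous_finsetSum
  intro a _
  apply continuous_finsetSum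
  intro b _
  exact (continuous_const.mul (hA a b)).mul continuous_const

/-- the point with row sums `r` and a unit in the reservoirs `j` and `l` -/
theorem point_eq (r : Fin q → ℕ) (j l : Fin n) :
    (Sum.elim r 0 + Pi.single (Sum.inr j) 1 + Pi.single (Sum.inr l) 1 : Fin q ⊕ Fin n → ℕ)
      = Sum.elim r (fun j' => (if j' = j then 1 else 0) + (if j' = l then 1 else 0)) := by
  funext a
  cases a with
  | inl i => simp
  | inr j' => simp [Pi.single_apply]

open Vale.Agent.Lib.P328.RP.UnitRows in
theorem Hcount_eq (r : Fin q → ℕ) (c : Fin n → ℕ) (j l : Fin n) :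
    Hcount r c j l = (cnt c (Finset.univ : Finset (Fin q × Fin n))
      (Sum.elim r (fun j' => (if j' = j then 1 else 0) + (if j' = l then 1 else 0))) : ℝ) := by
  unfold Hcount cnt
  congr 1
  apply Nat.subtype_card
  intro K
  rw [mem_goodSet]
  unfold Good
  constructor
  · intro h
    refine ⟨fun i => ?_, fun j' => ?_⟩
    · have := h.2.1 i
      simpa using this
    · have := h.2.2 j'
      simp only [Sum.elim_inr] at this
      omega
  · intro h
    refine ⟨fun i j' hij => absurd (Finset.mem_univ _) hij, fun i => ?_, fun j' => ?_⟩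
    · have := h.1 i
      simpa using this
    · have := h.2 j'
      simp only [Sum.elim_inr]
      omega

open Vale.Agent.Lib.P328.RP.UnitRows in
/-- **The rank-one bound for any number of rows.** -/
theorem ncq : NCq := by
  intro q n r c v
  rcases Nat.eq_zero_or_pos n with hn | hn
  · subst hn
    simp
  have : Nonempty (Fin n) := ⟨⟨0, hn⟩⟩
  -- the list of all cells
  set L : List (Fin q × Fin n) := (Finset.univ : Finset (Fin q × Fin n)).toList with hLdef
  have hLnd : L.Nodup := Finset.nodup_toList _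
  have hLfs : L.toFinset = Finset.univ := Finset.toList_toFinset _
  set γ : Fin q ⊕ Fin n → ℕ := Sum.elim r 0 with hγ
  set A : ℝ → Fin q ⊕ Fin n → Fin q ⊕ Fin n → ℝ := fun θ => hess (iterC L (base c θ)) γ with hA
  set x : Fin q ⊕ Fin n → ℝ := Sum.elim 0 (fun _ => 1) with hx
  set u : Fin q ⊕ Fin n → ℝ := Sum.elim 0 v with hu
  have hcont : ∀ a b, Continuous (fun θ => A θ a b) := by
    intro a b
    exact cont_iterC L (fun θ => base c θ) (cont_base c) _
  have hpos : ∀ θ : ℝ, 0 < θ → θ ≤ 1 →
      bil (A θ) x x * bil (A θ) u u ≤ bil (A θ) x u ^ 2 := by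
    intro θ h0 h1
    have hlor := lorF_iterC L (base c θ) (lorF_base c θ h0 h1)
    apply hlor.2 γ x u
    rw [hx, bil_elim]
    apply Finset.sum_pos
    · intro j _
      apply Finset.sum_pos
      · intro l _
        simp only [one_mul, mul_one]
        exact hlor.1 _
      · exact Finset.univ_nonempty
    · exact Finset.univ_nonempty
  -- pass to the limit
  have hlim : bil (A 0) x x * bil (A 0) u u ≤ bil (A 0) x u ^ 2 := by
    have hf : Continuous (fun θ => bil (A θ) x u ^ 2 - bil (A θ) x x * bil (A θ) u u) :=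
      ((cont_bil A hcont x u).pow 2).sub ((cont_bil A hcont x x).mul (cont_bil A hcont u u))
    have ht := (hf.tendsto 0).comp tendsto_one_div_add_atTop_nhds_zero_nat
    have hge : (0 : ℝ) ≤ bil (A 0) x u ^ 2 - bil (A 0) x x * bil (A 0) u u := by
      apply ge_of_tendsto' ht
      intro k
      have hk0 : (0 : ℝ) < 1 / ((k : ℝ) + 1) := by positivity
      have hk1 : 1 / ((k : ℝ) + 1) ≤ 1 := by
        rw [div_le_one (by positivity)]
        have : (0 : ℝ) ≤ k := Nat.cast_nonneg k
        linarith
      have := hpos _ hk0 hk1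
      simp only [Function.comp]
      linarith
    linarith
  -- identify the entries
  have hent : ∀ j l, A 0 (Sum.inr j) (Sum.inr l) = Hcount r c j l := by
    intro j l
    rw [hA]
    simp only
    unfold hess
    rw [iterC_base_zero c L hLnd, hLfs, hγ, point_eq, Hcount_eq]
  rw [hx, hu, bil_elim, bil_elim, bil_elim] at hlim
  simp only [hent, one_mul, mul_one] at hlim
  have e1 : ∑ j, ∑ l, v j * v l * Hcount r c j l = ∑ j, ∑ l, v j * Hcount r c j l * v l := by
    apply Finset.sum_congr rfl
    intro j _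
    apply Finset.sum_congr rfl
    intro l _
    ring
  have hsymm : ∀ j l, Hcount r c j l = Hcount r c l j := by
    intro j l
    rw [← hent, ← hent]
    exact hess_symm _ _ _ _
  have e2 : ∑ j, ∑ l, v j * Hcount r c j l = ∑ j, ∑ l, Hcount r c j l * v l := by
    rw [Finset.sum_comm]
    apply Finset.sum_congr rfl
    intro j _
    apply Finset.sum_congr rfl
    intro l _
    rw [hsymm l j]
    ring
  rw [e1, e2]
  linarith

end Vale.Agent.Lib.P328.NCq.H88
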